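import Crest.Agent.R304P.Glue

/-! # Edmonds' perfect matching polytope theorem -/

set_option autoImplicit false

namespace Crest.Agent.R304P

open Finset Filter Topology

variable {V E : Type} [DecidableEq V] [Fintype E] [DecidableEq E]

/-! ### Codimension bookkeeping -/

def Cod (L : Submodule ℝ (E → ℝ)) (c : ℕ) : Prop := Fintype.card E ≤ Module.finrank ℝ L + c

omit [DecidableEq E] in
lemma Cod.inf {L L' : Submodule ℝ (E → ℝ)} {c c' : ℕ} (h : Cod L c) (h' : Cod L' c') :
    Cod (L ⊓ L') (c + c') := by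
  have h1 := Submodule.finrank_sup_add_finrank_inf_eq L L'
  have h2 := Submodule.finrank_le (L ⊔ L')
  rw [Module.finrank_fintype_fun_eq_card] at h2
  unfold Cod at *
  omega

omit [DecidableEq E] in
lemma exists_cod {ι : Type} (I : Finset ι) (φ : ι → (E → ℝ) →ₗ[ℝ] ℝ) :
    ∃ L : Submodule ℝ (E → ℝ), Cod L I.card ∧ ∀ h ∈ L, ∀ i ∈ I, φ i h = 0 := by
  refine ⟨LinearMap.ker (LinearMap.pi fun i : I => φ i), ?_, fun h hh i hi => ?_⟩
  · have h1 := LinearMap.finrank_range_add_finrank_ker (LinearMap.pi fun i : I => φ i)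
    have h2 := Submodule.finrank_le (LinearMap.range (LinearMap.pi fun i : I => φ i))
    rw [Module.finrank_fintype_fun_eq_card] at h1 h2
    rw [Fintype.card_coe] at h2
    unfold Cod
    omega
  · exact congrFun (LinearMap.mem_ker.mp hh) ⟨i, hi⟩

/-! ### Moving inside finitely many linear constraints -/

lemma small_step {ι : Type} (I : Finset ι) (a b : ι → ℝ) (ha : ∀ i ∈ I, 0 ≤ a i)
    (hb : ∀ i ∈ I, b i ≠ 0 → 0 < a i) :
    ∃ ε : ℝ, 0 < ε ∧ ∀ t : ℝ, |t| < ε → ∀ i ∈ I, 0 ≤ a i + t * b i := by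
  have h : ∀ᶠ t : ℝ in 𝓝 0, ∀ i ∈ I, 0 ≤ a i + t * b i := by
    rw [Filter.eventually_all_finset]
    intro i hi
    by_cases h0 : b i = 0
    · exact Eventually.of_forall fun t => by simpa [h0] using ha i hi
    · have h1 : Tendsto (fun t : ℝ => a i + t * b i) (𝓝 0) (𝓝 (a i + 0 * b i)) :=
        (Continuous.tendsto (by fun_prop) 0)
      rw [zero_mul, add_zero] at h1
      exact (h1.eventually (lt_mem_nhds (hb i hi h0))).mono fun t ht => ht.le
  obtain ⟨ε, hε, h⟩ := Metric.eventually_nhds_iff.mp h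
  exact ⟨ε, hε, fun t ht => h (by simpa using ht)⟩

lemma max_step {ι : Type} (I : Finset ι) (a b : ι → ℝ) (ha : ∀ i ∈ I, 0 ≤ a i)
    (hb : ∀ i ∈ I, b i ≠ 0 → 0 < a i) (hn : ∃ i ∈ I, b i < 0) :
    ∃ t : ℝ, 0 < t ∧ (∀ i ∈ I, 0 ≤ a i + t * b i) ∧ ∃ i ∈ I, b i ≠ 0 ∧ a i + t * b i = 0 := by
  obtain ⟨j, hj, hmin⟩ := Finset.exists_min_image (I.filter fun i => b i < 0)
    (fun i => a i / (-b i)) (by
      obtain ⟨i, hi, h⟩ := hn
      exact ⟨i, Finset.mem_filter.mpr ⟨hi, h⟩⟩)
  obtain ⟨hj1, hj2⟩ := Finset.mem_filter.mp hj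
  have ht : 0 < a j / (-b j) := div_pos (hb j hj1 hj2.ne) (by linarith)
  refine ⟨_, ht, fun i hi => ?_, j, hj1, hj2.ne, ?_⟩
  · by_cases h : b i < 0
    · have h1 := hmin i (Finset.mem_filter.mpr ⟨hi, h⟩)
      rw [le_div_iff₀ (by linarith)] at h1
      linarith
    · have := ha i hi
      have := mul_nonneg ht.le (not_lt.mp h)
      linarith
  · have := hj2.ne
    field_simp
    ring

/-! ### Tight cuts and admissible directions -/

def NTight (W : Finset V) (ends : E → V × V) (x : E → ℝ) (S : Finset V) : Prop :=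
  S ⊆ W ∧ Odd S.card ∧ 3 ≤ S.card ∧ 3 ≤ (W \ S).card ∧ cut ends S x = 1

def Adm (W : Finset V) (ends : E → V × V) (x h : E → ℝ) : Prop :=
  (∀ e, (ends e).1 ≠ (ends e).2 → x e = 0 → h e = 0) ∧ ∀ v ∈ W, cut ends {v} h = 0

noncomputable def supp (ends : E → V × V) (x : E → ℝ) : Finset E :=
  Finset.univ.filter fun e => (ends e).1 ≠ (ends e).2 ∧ x e ≠ 0

noncomputable def sa (ends : E → V × V) (x : E → ℝ) : E ⊕ Finset V → ℝ
  | Sum.inl e => if (ends e).1 ≠ (ends e).2 then x e else 0
  | Sum.inr T => if Odd T.card then cut ends T x - 1 else 0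

noncomputable def sb (ends : E → V × V) (h : E → ℝ) : E ⊕ Finset V → ℝ
  | Sum.inl e => if (ends e).1 ≠ (ends e).2 then h e else 0
  | Sum.inr T => if Odd T.card then cut ends T h else 0

lemma odd_compl {W S : Finset V} (hW : Even W.card) (hS : S ⊆ W) (ho : Odd S.card) :
    Odd (W \ S).card := by
  have := Finset.card_sdiff_add_card_eq_card hS
  obtain ⟨i, hi⟩ := hW
  obtain ⟨j, hj⟩ := ho
  exact ⟨i - j - 1, by omega⟩

omit [DecidableEq E] in
lemma big_of_cut_ne {W : Finset V} {ends : E → V × V} (hW : InW W ends) (hev : Even W.card)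
    {h : E → ℝ} (hh : ∀ v ∈ W, cut ends {v} h = 0) {T : Finset V} (hT : T ⊆ W) (ho : Odd T.card)
    (hne : cut ends T h ≠ 0) : 3 ≤ T.card ∧ 3 ≤ (W \ T).card := by
  have key : ∀ U ⊆ W, Odd U.card → cut ends U h ≠ 0 → 3 ≤ U.card := by
    intro U hU hUo hU0
    by_contra hlt
    obtain ⟨j, hj⟩ := hUo
    obtain ⟨v, rfl⟩ := Finset.card_eq_one.mp (show U.card = 1 by omega)
    exact hU0 (hh v (hU (Finset.mem_singleton_self v)))
  exact ⟨key T hT ho hne, key _ Finset.sdiff_subset (odd_compl hev hT ho)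
    (by rwa [cut_compl hW])⟩

omit [DecidableEq E] in
lemma sa_nonneg {W : Finset V} {ends : E → V × V} {x : E → ℝ} (hx : InQ W ends x) :
    ∀ i ∈ (Finset.univ : Finset E).disjSum W.powerset, 0 ≤ sa ends x i := by
  rintro (e | T) hi
  · simp only [sa]
    split_ifs with h
    exacts [hx.nn e h, le_rfl]
  · simp only [sa]
    split_ifs with h
    · have := hx.odd T (by simpa using hi) h
      linarith
    · exact le_rfl

omit [DecidableEq E] in
lemma sa_pos {W : Finset V} {ends : E → V × V} (hW : InW W ends) (hev : Even W.card) {x h : E → ℝ}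
    (hx : InQ W ends x) (hn : ∀ S, ¬ NTight W ends x S) (hh : Adm W ends x h) :
    ∀ i ∈ (Finset.univ : Finset E).disjSum W.powerset, sb ends h i ≠ 0 → 0 < sa ends x i := by
  rintro (e | T) hi hb
  · simp only [sa, sb] at hb ⊢
    split_ifs at hb ⊢ with h1
    · exact lt_of_le_of_ne (hx.nn e h1) fun h2 => hb (hh.1 e h1 h2.symm)
    · exact absurd rfl hb
  · simp only [sa, sb] at hb ⊢
    have hT : T ⊆ W := by simpa using hi
    split_ifs at hb ⊢ with h1
    · obtain ⟨h2, h3⟩ := big_of_cut_ne hW hev hh.2 hT h1 hb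
      have h4 := hx.odd T hT h1
      have h5 : cut ends T x ≠ 1 := fun h5 => hn T ⟨hT, h1, h2, h3, h5⟩
      exact sub_pos.mpr (lt_of_le_of_ne h4 h5.symm)
    · exact absurd rfl hb

omit [DecidableEq E] in
lemma inQ_of_slack {W : Finset V} {ends : E → V × V} {x h : E → ℝ} (hx : InQ W ends x)
    (hh : Adm W ends x h) {t : ℝ}
    (ht : ∀ i ∈ (Finset.univ : Finset E).disjSum W.powerset,
      0 ≤ sa ends x i + t * sb ends h i) : InQ W ends (x + t • h) := by
  refine ⟨fun e he => ?_, fun v hv => ?_, fun T hT ho => ?_⟩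
  · have := ht (Sum.inl e) (by simp)
    simpa [sa, sb, he] using this
  · rw [map_add, map_smul, hx.deg v hv, hh.2 v hv, smul_zero, add_zero]
  · have := ht (Sum.inr T) (by simpa using hT)
    simp only [sa, sb, ho, if_true] at this
    rw [map_add, map_smul, smul_eq_mul]
    linarith

omit [DecidableEq E] in
lemma exists_neg {W : Finset V} {ends : E → V × V} (hW : InW W ends) {h : E → ℝ}
    (hh : ∀ v ∈ W, cut ends {v} h = 0) {e : E} (he : (ends e).1 ≠ (ends e).2) (h0 : h e ≠ 0) :
    ∃ f, (ends f).1 ≠ (ends f).2 ∧ h f < 0 := by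
  by_contra hcon
  push Not at hcon
  have h1 := hh _ (hW e).1
  rw [cut_apply, Finset.sum_eq_zero_iff_of_nonneg] at h1
  · have h2 := h1 e (Finset.mem_univ e)
    rw [if_neg (by simpa using he.symm)] at h2
    exact h0 h2
  · intro f _
    split_ifs with h2
    · exact le_rfl
    · exact hcon f fun h3 => h2 (by rw [h3])

/-- Moving along an admissible direction until the support drops or a tight cut appears. -/
lemma move {W : Finset V} {ends : E → V × V} (hW : InW W ends) (hev : Even W.card) {x h : E → ℝ}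
    (hx : InQ W ends x) (hn : ∀ S, ¬ NTight W ends x S) (hh : Adm W ends x h) {e : E}
    (he : (ends e).1 ≠ (ends e).2) (h0 : h e ≠ 0) :
    ∃ t : ℝ, 0 < t ∧ InQ W ends (x + t • h) ∧
      ((supp ends (x + t • h)).card < (supp ends x).card ∨ ∃ S, NTight W ends (x + t • h) S) := by
  obtain ⟨f, hf, hf0⟩ := exists_neg hW hh.2 he h0
  obtain ⟨t, ht, h1, i, hi, hb, hz⟩ := max_step _ (sa ends x) (sb ends h) (sa_nonneg hx)
    (sa_pos hW hev hx hn hh) ⟨Sum.inl f, by simp, by simpa [sb, hf] using hf0⟩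
  refine ⟨t, ht, inQ_of_slack hx hh h1, ?_⟩
  rcases i with g | T
  · left
    simp only [sa, sb] at hb hz
    split_ifs at hb hz with hg
    · refine Finset.card_lt_card ⟨fun u hu => ?_, fun hsub => ?_⟩
      · simp only [supp, Finset.mem_filter, Finset.mem_univ, true_and] at hu ⊢
        refine ⟨hu.1, fun h2 => hu.2 ?_⟩
        simp [h2, hh.1 u hu.1 h2]
      · have h2 : g ∈ supp ends x := by
          simp only [supp, Finset.mem_filter, Finset.mem_univ, true_and]
          exact ⟨hg, fun h2 => hb (hh.1 g hg h2)⟩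
        have h3 := hsub h2
        simp only [supp, Finset.mem_filter, Finset.mem_univ, true_and] at h3
        exact h3.2 (by simpa using hz)
    · exact absurd rfl hb
  · right
    simp only [sa, sb] at hb hz
    have hT : T ⊆ W := by simpa using hi
    split_ifs at hb hz with h2
    · obtain ⟨h3, h4⟩ := big_of_cut_ne hW hev hh.2 hT h2 hb
      refine ⟨T, hT, h2, h3, h4, ?_⟩
      rw [map_add, map_smul, smul_eq_mul]
      linarith
    · exact absurd rfl hb

omit [DecidableEq E] in
lemma cut_self {W : Finset V} {ends : E → V × V} (hW : InW W ends) (y : E → ℝ) :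
    cut ends W y = 0 := by
  rw [cut_apply]
  exact Finset.sum_eq_zero fun e _ => if_pos (by simp [(hW e).1, (hW e).2])

omit [DecidableEq E] in
lemma card_eq_cut {W : Finset V} {ends : E → V × V} {x : E → ℝ} (hx : InQ W ends x) {S : Finset V}
    (hS : S ⊆ W) : (S.card : ℝ) = cut ends S x + 2 * inside ends S x := by
  rw [← sum_deg, Finset.sum_congr rfl fun v hv => hx.deg v (hS hv)]
  simp

omit [DecidableEq E] in
lemma exists_inside {ends : E → V × V} {S : Finset V} {x : E → ℝ} (h : inside ends S x ≠ 0) :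
    ∃ e, (ends e).1 ≠ (ends e).2 ∧ (ends e).1 ∈ S ∧ (ends e).2 ∈ S ∧ x e ≠ 0 := by
  obtain ⟨e, -, he⟩ := Finset.exists_ne_zero_of_sum_ne_zero h
  split_ifs at he with h1
  · exact ⟨e, h1.1, h1.2.1, h1.2.2, he⟩
  · exact absurd rfl he

lemma small_pm {W : Finset V} {ends : E → V × V} (hW : InW W ends) (hev : Even W.card)
    (h4 : W.card ≤ 4) {x : E → ℝ} (hx : InQ W ends x) :
    ∃ M, PM W ends M ∧ ∀ e ∈ M, x e ≠ 0 := by
  rcases Finset.eq_empty_or_nonempty W with rfl | hne
  · exact ⟨∅, ⟨by simp, by simp⟩, by simp⟩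
  have h1 := card_eq_cut hx (Finset.Subset.refl W)
  rw [cut_self hW] at h1
  have hpos : (0 : ℝ) < W.card := by exact_mod_cast hne.card_pos
  obtain ⟨e, he, ha, hb, hxe⟩ := exists_inside (ends := ends) (S := W) (x := x) (by linarith)
  have hS : ({(ends e).1, (ends e).2} : Finset V) ⊆ W := by
    intro v hv
    rcases Finset.mem_insert.mp hv with rfl | hv
    · exact ha
    · rwa [Finset.mem_singleton.mp hv]
  have hc : ({(ends e).1, (ends e).2} : Finset V).card = 2 := Finset.card_pair he
  have hT := Finset.card_sdiff_add_card_eq_card hS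
  rw [hc] at hT
  obtain ⟨j, hj⟩ := hev
  by_cases h0 : (W \ {(ends e).1, (ends e).2}).card = 0
  · refine ⟨{e}, ⟨by simpa using he, fun v hv => ?_⟩, by simpa using hxe⟩
    have h2 : v ∈ ({(ends e).1, (ends e).2} : Finset V) := by
      by_contra h2
      exact Finset.card_ne_zero_of_mem (Finset.mem_sdiff.mpr ⟨hv, h2⟩) h0
    rw [Finset.filter_singleton, if_pos, Finset.card_singleton]
    simpa [eq_comm] using h2
  · have h2 : (W \ {(ends e).1, (ends e).2}).card = 2 := by omega
    have h5 := card_eq_cut hx hS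
    have h6 := card_eq_cut hx (Finset.sdiff_subset (s := W) (t := {(ends e).1, (ends e).2}))
    rw [cut_compl hW, h2] at h6
    rw [hc] at h5
    have h7 : x e ≤ inside ends {(ends e).1, (ends e).2} x := by
      have := Finset.single_le_sum (f := fun f => if (ends f).1 ≠ (ends f).2 ∧
          (ends f).1 ∈ ({(ends e).1, (ends e).2} : Finset V) ∧
          (ends f).2 ∈ ({(ends e).1, (ends e).2} : Finset V) then x f else 0)
        (fun f _ => by split_ifs with h; exacts [hx.nn f h.1, le_rfl]) (Finset.mem_univ e)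
      simpa [he, inside] using this
    have h8 : 0 < x e := lt_of_le_of_ne (hx.nn e he) hxe.symm
    obtain ⟨f, hf, hc', hd', hxf⟩ := exists_inside (ends := ends)
      (S := W \ {(ends e).1, (ends e).2}) (x := x) (by linarith)
    have h9 : W \ {(ends e).1, (ends e).2} = {(ends f).1, (ends f).2} := by
      symm
      refine Finset.eq_of_subset_of_card_le ?_ (by rw [h2, Finset.card_pair hf])
      intro v hv
      rcases Finset.mem_insert.mp hv with rfl | hv
      · exact hc'
      · rwa [Finset.mem_singleton.mp hv]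
    refine ⟨{e, f}, ⟨?_, fun v hv => ?_⟩, ?_⟩
    · intro g hg
      rcases Finset.mem_insert.mp hg with rfl | hg
      · exact he
      · rwa [Finset.mem_singleton.mp hg]
    · have h10 : v ∈ ({(ends f).1, (ends f).2} : Finset V) ↔
          v ∉ ({(ends e).1, (ends e).2} : Finset V) := by
        rw [← h9, Finset.mem_sdiff]
        simp only [hv, true_and]
      simp only [Finset.mem_insert, Finset.mem_singleton, eq_comm (a := v)] at h10
      rw [Finset.filter_insert, Finset.filter_singleton]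
      by_cases h11 : (ends e).1 = v ∨ (ends e).2 = v
      · rw [if_pos h11, if_neg (fun h => h10.mp h h11)]
        simp
      · rw [if_neg h11, if_pos (h10.mpr h11)]
        simp
    · intro g hg
      rcases Finset.mem_insert.mp hg with rfl | hg
      · exact hxe
      · rwa [Finset.mem_singleton.mp hg]

lemma three_le_deg {W : Finset V} {ends : E → V × V} (hW : InW W ends) (h6 : 6 ≤ W.card)
    {x : E → ℝ} (hx : InQ W ends x) (hn : ∀ S, ¬ NTight W ends x S) {v : V} (hv : v ∈ W) :
    3 ≤ ((supp ends x).filter fun e => (ends e).1 = v ∨ (ends e).2 = v).card := by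
  by_contra hlt
  set D := (supp ends x).filter fun e => (ends e).1 = v ∨ (ends e).2 = v with hD
  have hN : D.image (fun e => if (ends e).1 = v then (ends e).2 else (ends e).1) ⊆ W.erase v := by
    intro u hu
    obtain ⟨e, he, rfl⟩ := Finset.mem_image.mp hu
    have h1 : (ends e).1 ≠ (ends e).2 := (Finset.mem_filter.mp (Finset.mem_filter.mp he).1).2.1
    split_ifs with h2
    · exact Finset.mem_erase.mpr ⟨fun h3 => h1 (h2.trans h3.symm), (hW e).2⟩
    · exact Finset.mem_erase.mpr ⟨h2, (hW e).1⟩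
  obtain ⟨U, hU1, hU2, hU3⟩ := Finset.exists_subsuperset_card_eq hN
    (Finset.card_image_le.trans (show D.card ≤ 2 by omega))
    (by rw [Finset.card_erase_of_mem hv]; omega)
  have hvU : v ∉ U := fun h => (Finset.mem_erase.mp (hU2 h)).1 rfl
  have hS : insert v U ⊆ W := Finset.insert_subset hv (hU2.trans (Finset.erase_subset _ _))
  have hc : (insert v U).card = 3 := by rw [Finset.card_insert_of_notMem hvU, hU3]
  have ho : Odd (insert v U).card := by rw [hc]; decide
  have h1 := card_eq_cut hx hS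
  have h2 : cut ends {v} x ≤ inside ends (insert v U) x := by
    rw [cut_apply, inside]
    refine Finset.sum_le_sum fun e _ => ?_
    by_cases h3 : ((ends e).1 ∈ ({v} : Finset V) ↔ (ends e).2 ∈ ({v} : Finset V))
    · rw [if_pos h3]
      split_ifs with h4
      exacts [hx.nn e h4.1, le_rfl]
    · rw [if_neg h3]
      have hl : (ends e).1 ≠ (ends e).2 := fun h => h3 (by rw [h])
      by_cases h0 : x e = 0
      · simp [h0]
      · simp only [Finset.mem_singleton] at h3
        have h4 : (ends e).1 = v ∨ (ends e).2 = v := by tauto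
        have h5 : e ∈ D := Finset.mem_filter.mpr ⟨Finset.mem_filter.mpr
          ⟨Finset.mem_univ _, hl, h0⟩, h4⟩
        have h7 := hU1 (Finset.mem_image_of_mem _ h5)
        rw [if_pos]
        refine ⟨hl, ?_⟩
        by_cases h8 : (ends e).1 = v
        · rw [if_pos h8] at h7
          exact ⟨h8 ▸ Finset.mem_insert_self _ _, Finset.mem_insert_of_mem h7⟩
        · rw [if_neg h8] at h7
          exact ⟨Finset.mem_insert_of_mem h7, (h4.resolve_left h8) ▸ Finset.mem_insert_self _ _⟩
  rw [hx.deg v hv] at h2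
  have h3 := hx.odd _ hS ho
  have h4 := Finset.card_sdiff_add_card_eq_card hS
  refine hn (insert v U) ⟨hS, ho, hc.ge, by omega, ?_⟩
  rw [hc] at h1
  push_cast at h1
  linarith

lemma exists_adm {W : Finset V} {ends : E → V × V} (hW : InW W ends) (h6 : 6 ≤ W.card)
    {x : E → ℝ} (hx : InQ W ends x) (hn : ∀ S, ¬ NTight W ends x S) :
    ∃ h, Adm W ends x h ∧ ∃ e, (ends e).1 ≠ (ends e).2 ∧ h e ≠ 0 := by
  have hnl : ∀ e ∈ supp ends x, (ends e).1 ≠ (ends e).2 := fun e he =>
    (Finset.mem_filter.mp he).2.1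
  have h1 := sum_deg ends W (chi (supp ends x))
  rw [cut_self hW, zero_add] at h1
  have h2 : inside ends W (chi (supp ends x)) ≤ (supp ends x).card := by
    have : ((supp ends x).card : ℝ) = ∑ e, chi (supp ends x) e := by simp [chi]
    rw [this, inside]
    refine Finset.sum_le_sum fun e _ => ?_
    split_ifs
    · exact le_rfl
    · unfold chi; split_ifs <;> norm_num
  have h3 : ∑ v ∈ W, (3 : ℝ) ≤ ∑ v ∈ W, cut ends {v} (chi (supp ends x)) := by
    refine Finset.sum_le_sum fun v hv => ?_
    rw [cut_chi_single hnl]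
    exact_mod_cast three_le_deg hW h6 hx hn hv
  simp only [Finset.sum_const, nsmul_eq_mul] at h3
  have h4 : W.card * 3 ≤ 2 * (supp ends x).card := by
    have : (W.card : ℝ) * 3 ≤ 2 * (supp ends x).card := by linarith
    exact_mod_cast this
  obtain ⟨L, hL, hL'⟩ := exists_cod W fun v => cut ends {v}
  obtain ⟨K, hK, hK'⟩ := exists_cod (E := E) (supp ends x)ᶜ fun e => LinearMap.proj e
  have h5 := hL.inf hK
  have h7 := Finset.card_add_card_compl (supp ends x)
  have h8 : 0 < Module.finrank ℝ (L ⊓ K : Submodule ℝ (E → ℝ)) := by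
    unfold Cod at h5
    omega
  obtain ⟨⟨h, hh⟩, hne⟩ := Module.finrank_pos_iff_exists_ne_zero.mp h8
  have hz : ∀ e, e ∉ supp ends x → h e = 0 := fun e he => hK' h hh.2 e (Finset.mem_compl.mpr he)
  refine ⟨h, ⟨fun e _ h0 => hz e fun he => (Finset.mem_filter.mp he).2.2 h0,
    fun v hv => hL' h hh.1 v hv⟩, ?_⟩
  by_contra hcon
  push Not at hcon
  refine hne (Subtype.ext (funext fun e => ?_))
  by_cases he : e ∈ supp ends x
  · exact hcon e (hnl e he)
  · exact hz e he

lemma split_compl {W S : Finset V} (hS : S ⊆ W) : Split W S (W \ S) :=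
  ⟨hS, Finset.sdiff_subset, fun a ha => by simp [ha]⟩

/-- **Edmonds' theorem**. -/
theorem edmonds (W : Finset V) (ends : E → V × V) (hW : InW W ends) (hev : Even W.card)
    (x : E → ℝ) (hx : InQ W ends x) : InP W ends x := by
  induction hn : W.card using Nat.strong_induction_on generalizing W ends x with
  | _ n ih =>
  have tight : ∀ y, InQ W ends y → (∃ S, NTight W ends y S) → InP W ends y := by
    rintro y hy ⟨S, hS, ho, h3, h3', ht⟩
    have hc := Finset.card_sdiff_add_card_eq_card hS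
    obtain ⟨r, hr⟩ := Finset.card_pos.mp (show 0 < (W \ S).card by omega)
    obtain ⟨r', hr'⟩ := Finset.card_pos.mp (show 0 < S.card by omega)
    have hrS : r ∉ S := (Finset.mem_sdiff.mp hr).2
    have hrS' : r' ∉ W \ S := fun h => (Finset.mem_sdiff.mp h).2 hr'
    have ho' := odd_compl hev hS ho
    refine glue hW (split_compl hS) hrS hrS' ?_ ?_
    · refine ih _ ?_ _ _ (inW_cends _ _ _) ?_ _ (hy.contract hW hS ho' ht hrS) rfl
      · rw [Finset.card_insert_of_notMem hrS]; omega
      · rw [Finset.card_insert_of_notMem hrS]; exact ho.add_one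
    · refine ih _ ?_ _ _ (inW_cends _ _ _) ?_ _ (hy.contract hW Finset.sdiff_subset ?_ ?_ hrS') rfl
      · rw [Finset.card_insert_of_notMem hrS']; omega
      · rw [Finset.card_insert_of_notMem hrS']; exact ho'.add_one
      · rwa [Finset.sdiff_sdiff_eq_self hS]
      · rwa [cut_compl hW]
  induction hs : (supp ends x).card using Nat.strong_induction_on generalizing x with
  | _ s ihs =>
  by_cases ht : ∃ S, NTight W ends x S
  · exact tight x hx ht
  push Not at ht
  have dir : ∀ h, Adm W ends x h → ∀ e, (ends e).1 ≠ (ends e).2 → h e ≠ 0 →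
      ∃ t : ℝ, 0 < t ∧ InP W ends (x + t • h) := by
    intro h hh e he h0
    obtain ⟨t, h1, h2, h3 | h3⟩ := move hW hev hx ht hh he h0
    · exact ⟨t, h1, ihs _ (hs ▸ h3) _ h2 rfl⟩
    · exact ⟨t, h1, tight _ h2 h3⟩
  have both : ∀ h, Adm W ends x h → ∀ e, (ends e).1 ≠ (ends e).2 → h e ≠ 0 → InP W ends x := by
    intro h hh e he h0
    obtain ⟨t, h1, h2⟩ := dir h hh e he h0
    obtain ⟨u, h3, h4⟩ := dir (-h) ⟨fun f hf hx0 => by simp [hh.1 f hf hx0],
      fun v hv => by rw [map_neg, hh.2 v hv, neg_zero]⟩ e he (by simpa using h0)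
    have h5 := h2.mix h4 (a := u / (t + u)) (b := t / (t + u)) (by positivity) (by positivity)
      (by field_simp; ring)
    convert h5 using 1
    funext f
    simp only [Pi.add_apply, Pi.smul_apply, Pi.neg_apply, smul_eq_mul]
    field_simp
    ring
  by_cases h6 : 6 ≤ W.card
  · obtain ⟨h, hh, e, he, h0⟩ := exists_adm hW h6 hx ht
    exact both h hh e he h0
  · obtain ⟨M, hM, hM'⟩ := small_pm hW hev (by obtain ⟨j, hj⟩ := hev; omega) hx
    by_cases h7 : ∀ e, (ends e).1 ≠ (ends e).2 → chi M e = x e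
    · exact hM.inP h7
    · push Not at h7
      obtain ⟨e, he, h0⟩ := h7
      refine both (chi M - x) ⟨fun f _ hf => ?_, fun v hv => ?_⟩ e he (sub_ne_zero.mpr h0)
      · have : f ∉ M := fun h => hM' f h hf
        simp [chi, this, hf]
      · rw [map_sub, hM.inQ.deg v hv, hx.deg v hv, sub_self]

end Crest.Agent.R304P
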