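import Crest.Prelude.Def_MatchingPolytope
import Crest.Agent.R304P.Edmonds

/-! # The codimension of the minimal face, and the bridge to the prelude definitions -/

set_option autoImplicit false

namespace Crest.Agent.R304P

open Finset Crest.Matchings

section

variable {V E : Type} [DecidableEq V] [Fintype E] [DecidableEq E]

def Dirn (W : Finset V) (ends : E → V × V) (x h : E → ℝ) : Prop :=
  ∃ ε : ℝ, 0 < ε ∧ ∀ t : ℝ, |t| < ε → InP W ends (x + t • h)

lemma Dirn.deg {W : Finset V} {ends : E → V × V} {x h : E → ℝ} (hx : InQ W ends x)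
    (hd : Dirn W ends x h) {v : V} (hv : v ∈ W) : cut ends {v} h = 0 := by
  obtain ⟨ε, hε, hd⟩ := hd
  have h1 := (hd (ε / 2) (by rw [abs_of_pos (by positivity)]; linarith)).inQ.deg v hv
  rw [map_add, map_smul, hx.deg v hv, smul_eq_mul] at h1
  have h2 : ε / 2 * cut ends {v} h = 0 := by linarith
  exact (mul_eq_zero.mp h2).resolve_left (by positivity)

theorem codim (W : Finset V) (ends : E → V × V) (hW : InW W ends) (hev : Even W.card)
    (x : E → ℝ) (hx : InQ W ends x) (r : V) (hr : r ∈ W) :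
    ∃ (L : Submodule ℝ (E → ℝ)) (c : ℕ), Cod L c ∧ 2 * c + 6 ≤ 3 * W.card ∧
      ∀ h ∈ L, (∀ e, (ends e).1 ≠ (ends e).2 → x e = 0 → h e = 0) → cut ends {r} h = 0 →
        Dirn W ends x h := by
  induction hn : W.card using Nat.strong_induction_on generalizing W ends r with
  | _ n ih =>
  by_cases ht : ∃ S, NTight W ends x S
  · have ht' : ∃ S, NTight W ends x S ∧ r ∉ S := by
      obtain ⟨S, hS, ho, h3, h3', ht⟩ := ht
      by_cases hrS : r ∈ S
      · refine ⟨W \ S, ⟨Finset.sdiff_subset, odd_compl hev hS ho, h3', ?_, ?_⟩,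
          fun h => (Finset.mem_sdiff.mp h).2 hrS⟩
        · rwa [Finset.sdiff_sdiff_eq_self hS]
        · rwa [cut_compl hW]
      · exact ⟨S, ⟨hS, ho, h3, h3', ht⟩, hrS⟩
    obtain ⟨S, ⟨hS, ho, h3, h3', ht⟩, hrS⟩ := ht'
    have hc := Finset.card_sdiff_add_card_eq_card hS
    obtain ⟨r', hr'⟩ := Finset.card_pos.mp (show 0 < S.card by omega)
    have hrS' : r' ∉ W \ S := fun h => (Finset.mem_sdiff.mp h).2 hr'
    have hrT : r ∈ W \ S := Finset.mem_sdiff.mpr ⟨hr, hrS⟩
    have ho' := odd_compl hev hS ho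
    have c1 := Finset.card_insert_of_notMem hrS
    have c2 := Finset.card_insert_of_notMem hrS'
    have q1 := hx.contract hW hS ho' ht hrS
    have q2 := hx.contract hW (Finset.sdiff_subset (t := S))
      (by rwa [Finset.sdiff_sdiff_eq_self hS]) (by rwa [cut_compl hW]) hrS'
    obtain ⟨L1, k1, hL1, hk1, hd1⟩ := ih _ (by rw [c1]; omega) _ _ (inW_cends S r ends)
      (by rw [c1]; exact ho.add_one) q1 r (Finset.mem_insert_self _ _) rfl
    obtain ⟨L2, k2, hL2, hk2, hd2⟩ := ih _ (by rw [c2]; omega) _ _ (inW_cends (W \ S) r' ends)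
      (by rw [c2]; exact ho'.add_one) q2 r (Finset.mem_insert_of_mem hrT) rfl
    refine ⟨L1 ⊓ L2, k1 + k2, hL1.inf hL2, by omega, fun h hh hs h0 => ?_⟩
    have d2 := hd2 h hh.2 (fun e he => hs e ((nl_cends hrS' ends e).mp he).1)
      (by rwa [cut_cends_mem hW Finset.sdiff_subset hrS' hrT])
    have h4 := d2.deg q2 (Finset.mem_insert_self _ _)
    rw [cut_cends_root hW hrS', cut_compl hW] at h4
    have d1 := hd1 h hh.1 (fun e he => hs e ((nl_cends hrS ends e).mp he).1)
      (by rwa [cut_cends_root hW hrS])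
    obtain ⟨ε1, hε1, d1⟩ := d1
    obtain ⟨ε2, hε2, d2⟩ := d2
    exact ⟨min ε1 ε2, lt_min hε1 hε2, fun t ht => glue hW (split_compl hS) hrS hrS'
      (d1 t (ht.trans_le (min_le_left _ _))) (d2 t (ht.trans_le (min_le_right _ _)))⟩
  · push Not at ht
    have key : ∀ h, Adm W ends x h → Dirn W ends x h := by
      intro h hh
      obtain ⟨ε, hε, h1⟩ := small_step _ (sa ends x) (sb ends h) (sa_nonneg hx)
        (sa_pos hW hev hx ht hh)
      exact ⟨ε, hε, fun t ht => edmonds W ends hW hev _ (inQ_of_slack hx hh (h1 t ht))⟩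
    have hce := Finset.card_erase_of_mem hr
    have hpos : 0 < W.card := Finset.card_pos.mpr ⟨r, hr⟩
    obtain ⟨j, hj⟩ := hev
    by_cases h2 : W.card = 2
    · refine ⟨⊤, 0, by simp [Cod], by omega, fun h _ hs h0 => key h ⟨hs, fun v hv => ?_⟩⟩
      by_cases hv' : v = r
      · rwa [hv']
      · have h3 : ({v} : Finset V) = W \ {r} := by
          refine Finset.eq_of_subset_of_card_le (by simp [hv, hv']) ?_
          rw [Finset.sdiff_singleton_eq_erase, hce, h2, Finset.card_singleton]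
        rwa [h3, cut_compl hW]
    · obtain ⟨L, hL, hL'⟩ := exists_cod (W.erase r) fun v => cut ends {v}
      refine ⟨L, _, hL, by omega, fun h hh hs h0 => key h ⟨hs, fun v hv => ?_⟩⟩
      by_cases hv' : v = r
      · rwa [hv']
      · exact hL' h hh v (Finset.mem_erase.mpr ⟨hv', hv⟩)

end

section bridge

variable {n k : ℕ} {ends : Fin k → Fin n × Fin n}

lemma marginal_eq (p : Finset (Fin k) → ℝ) (e : Fin k) :
    marginal p e = ∑ M, if e ∈ M then p M else 0 := Finset.sum_filter _ _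

lemma pmIndicator_apply (M : Finset (Fin k)) (e : Fin k) :
    pmIndicator M e = if e ∈ M then 1 else 0 := rfl

lemma pm_iff (hends : ∀ e, (ends e).1 ≠ (ends e).2) (M : Finset (Fin k)) :
    PM Finset.univ ends M ↔ IsPerfectMatching ends M :=
  ⟨fun h w => h.2 w (Finset.mem_univ w), fun h => ⟨fun e _ => hends e, fun v _ => h v⟩⟩

lemma inP_iff_law (hends : ∀ e, (ends e).1 ≠ (ends e).2) (y : Fin k → ℝ) :
    InP Finset.univ ends y ↔ ∃ p, IsMatchingLaw ends p ∧ ∀ e, marginal p e = y e := by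
  constructor
  · rintro ⟨p, h0, h1, h2, h3⟩
    refine ⟨p, ⟨h0, h1, fun M hM => (pm_iff hends M).mp (h2 M hM)⟩, fun e => ?_⟩
    rw [← h3 e (hends e), marginal_eq]
  · rintro ⟨p, ⟨h0, h1, h2⟩, h3⟩
    refine ⟨p, h0, h1, fun M hM => (pm_iff hends M).mpr (h2 M hM), fun e _ => ?_⟩
    rw [← h3 e, marginal_eq]

lemma inP_iff_mem (hends : ∀ e, (ends e).1 ≠ (ends e).2) (y : Fin k → ℝ) :
    InP Finset.univ ends y ↔ y ∈ pmPolytope ends := by
  constructor
  · rintro ⟨p, h0, h1, h2, h3⟩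
    have e1 : y = ∑ M ∈ Finset.univ.filter (fun M => p M ≠ 0), p M • pmIndicator M := by
      funext e
      rw [← h3 e (hends e), Finset.sum_apply, Finset.sum_filter]
      refine Finset.sum_congr rfl fun M _ => ?_
      by_cases h4 : p M = 0 <;> simp [h4, pmIndicator_apply]
    rw [e1]
    refine (convex_convexHull ℝ _).sum_mem (fun M _ => h0 M) ?_ fun M hM => ?_
    · rw [Finset.sum_filter_ne_zero, h1]
    · exact subset_convexHull ℝ _ ⟨M, (pm_iff hends M).mp (h2 M (Finset.mem_filter.mp hM).2), rfl⟩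
  · intro hy
    refine convexHull_min (t := {y | InP Finset.univ ends y}) ?_ ?_ hy
    · rintro _ ⟨M, hM, rfl⟩
      exact ((pm_iff hends M).mpr hM).inP fun e _ => rfl
    · intro y hy z hz a b ha hb hab
      exact InP.mix hy hz ha hb hab

/-- Edmonds' description of `pmPolytope`. -/
theorem mem_pmPolytope_iff (hends : ∀ e, (ends e).1 ≠ (ends e).2) (hn : Even n) (y : Fin k → ℝ) :
    y ∈ pmPolytope ends ↔ (∀ e, 0 ≤ y e) ∧ (∀ v, cut ends {v} y = 1) ∧
      ∀ T : Finset (Fin n), Odd T.card → 1 ≤ cut ends T y := by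
  rw [← inP_iff_mem hends]
  constructor
  · intro h
    have := h.inQ
    exact ⟨fun e => this.nn e (hends e), fun v => this.deg v (Finset.mem_univ v),
      fun T hT => this.odd T (Finset.subset_univ T) hT⟩
  · rintro ⟨h1, h2, h3⟩
    exact edmonds _ _ (fun e => ⟨Finset.mem_univ _, Finset.mem_univ _⟩) (by simpa using hn) y
      ⟨fun e _ => h1 e, fun v _ => h2 v, fun T _ hT => h3 T hT⟩

/-- A subspace of two-sided feasible directions of dimension `≥ #supp - (3m - 2)`. -/
theorem exists_dir_subspace {m : ℕ} (hm : 1 ≤ m) {ends : Fin k → Fin (2 * m) × Fin (2 * m)}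
    (hends : ∀ e, (ends e).1 ≠ (ends e).2) {x : Fin k → ℝ} (hx : x ∈ pmPolytope ends) :
    ∃ L : Submodule ℝ (Fin k → ℝ), (L : Set (Fin k → ℝ)) ⊆ pmDirections ends x ∧
      (Finset.univ.filter fun e => 0 < x e).card + 2 ≤ Module.finrank ℝ L + 3 * m := by
  have hq := ((inP_iff_mem hends x).mpr hx).inQ
  obtain ⟨L, c, hL, hc, hd⟩ := codim Finset.univ ends
    (fun e => ⟨Finset.mem_univ _, Finset.mem_univ _⟩) (by simp) x hq ⟨0, by omega⟩
    (Finset.mem_univ _)
  obtain ⟨L1, hL1, hL1'⟩ := exists_cod ({⟨0, by omega⟩} : Finset (Fin (2 * m)))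
    fun v => cut ends {v}
  obtain ⟨K, hK, hK'⟩ := exists_cod (E := Fin k) (Finset.univ.filter fun e => 0 < x e)ᶜ
    fun e => LinearMap.proj e
  have h1 := (hL.inf hL1).inf hK
  have h2 := Finset.card_add_card_compl (Finset.univ.filter fun e => 0 < x e)
  refine ⟨L ⊓ L1 ⊓ K, fun h hh => ?_, ?_⟩
  · obtain ⟨ε, hε, h3⟩ := hd h hh.1.1 (fun e _ h0 => hK' h hh.2 e (by simp [h0]))
      (hL1' h hh.1.2 _ (Finset.mem_singleton_self _))
    exact ⟨ε, hε, fun t ht => (inP_iff_mem hends _).mp (h3 t ht)⟩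
  · unfold Cod at h1
    simp only [Finset.card_univ, Fintype.card_fin, Finset.card_singleton] at h1 h2 hc
    omega

end bridge

end Crest.Agent.R304P
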