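import Mathlib

/-!
# Perfect matching polytope: cuts, laws, contraction and gluing

A multigraph is a vertex set `W : Finset V` and `ends : E → V × V` with all ends in `W`; loops are ignored.
-/

set_option autoImplicit false

namespace Crest.Agent.R304P

open Finset

variable {V E : Type} [DecidableEq V] [Fintype E] [DecidableEq E]

/-- `y(δ(S))`. -/
def cut (ends : E → V × V) (S : Finset V) : (E → ℝ) →ₗ[ℝ] ℝ where
  toFun y := ∑ e, if ((ends e).1 ∈ S ↔ (ends e).2 ∈ S) then 0 else y e
  map_add' y z := by
    rw [← Finset.sum_add_distrib]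
    refine Finset.sum_congr rfl fun e _ => ?_
    split_ifs <;> simp
  map_smul' c y := by
    simp only [RingHom.id_apply, smul_eq_mul, Finset.mul_sum]
    refine Finset.sum_congr rfl fun e _ => ?_
    split_ifs <;> simp

omit [DecidableEq E] in
lemma cut_apply (ends : E → V × V) (S : Finset V) (y : E → ℝ) :
    cut ends S y = ∑ e, if ((ends e).1 ∈ S ↔ (ends e).2 ∈ S) then 0 else y e := rfl

/-- `y(E[S])`, loops ignored. -/
def inside (ends : E → V × V) (S : Finset V) (y : E → ℝ) : ℝ :=
  ∑ e, if (ends e).1 ≠ (ends e).2 ∧ (ends e).1 ∈ S ∧ (ends e).2 ∈ S then y e else 0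

def InW (W : Finset V) (ends : E → V × V) : Prop := ∀ e, (ends e).1 ∈ W ∧ (ends e).2 ∈ W

def PM (W : Finset V) (ends : E → V × V) (M : Finset E) : Prop :=
  (∀ e ∈ M, (ends e).1 ≠ (ends e).2) ∧
    ∀ v ∈ W, (M.filter fun e => (ends e).1 = v ∨ (ends e).2 = v).card = 1

/-- `y` is (on the non-loops) the marginal vector of a law on perfect matchings. -/
def InP (W : Finset V) (ends : E → V × V) (y : E → ℝ) : Prop :=
  ∃ p : Finset E → ℝ, (∀ M, 0 ≤ p M) ∧ ∑ M, p M = 1 ∧ (∀ M, p M ≠ 0 → PM W ends M) ∧
    ∀ e, (ends e).1 ≠ (ends e).2 → ∑ M, (if e ∈ M then p M else 0) = y e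

/-- Edmonds' inequalities. -/
structure InQ (W : Finset V) (ends : E → V × V) (y : E → ℝ) : Prop where
  nn : ∀ e, (ends e).1 ≠ (ends e).2 → 0 ≤ y e
  deg : ∀ v ∈ W, cut ends {v} y = 1
  odd : ∀ T ⊆ W, Odd T.card → 1 ≤ cut ends T y

omit [DecidableEq E] in
lemma cut_compl {W : Finset V} {ends : E → V × V} (hW : InW W ends) (S : Finset V) (y : E → ℝ) :
    cut ends (W \ S) y = cut ends S y := by
  rw [cut_apply, cut_apply]
  refine Finset.sum_congr rfl fun e _ => ?_
  have h := hW e
  simp only [Finset.mem_sdiff, h.1, h.2, true_and, not_iff_not]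

omit [DecidableEq E] in
lemma sum_deg (ends : E → V × V) (S : Finset V) (y : E → ℝ) :
    ∑ v ∈ S, cut ends {v} y = cut ends S y + 2 * inside ends S y := by
  simp only [cut_apply, inside]
  rw [Finset.sum_comm, Finset.mul_sum, ← Finset.sum_add_distrib]
  refine Finset.sum_congr rfl fun e _ => ?_
  by_cases hl : (ends e).1 = (ends e).2
  · simp [hl]
  · have h : ∀ v ∈ S, (if ((ends e).1 ∈ ({v} : Finset V) ↔ (ends e).2 ∈ ({v} : Finset V)) then 0
        else y e) = (if (ends e).1 = v then y e else 0) + (if (ends e).2 = v then y e else 0) := by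
      intro v _
      simp only [Finset.mem_singleton]
      by_cases h1 : (ends e).1 = v <;> by_cases h2 : (ends e).2 = v
      · exact absurd (h1.trans h2.symm) hl
      all_goals simp [h1, h2]
    rw [Finset.sum_congr rfl h, Finset.sum_add_distrib, Finset.sum_ite_eq, Finset.sum_ite_eq]
    by_cases h1 : (ends e).1 ∈ S <;> by_cases h2 : (ends e).2 ∈ S <;> simp [h1, h2, hl]
    ring

omit [DecidableEq E] in
lemma cut_congr {ends : E → V × V} (S : Finset V) {y z : E → ℝ}
    (h : ∀ e, (ends e).1 ≠ (ends e).2 → y e = z e) : cut ends S y = cut ends S z := by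
  rw [cut_apply, cut_apply]
  refine Finset.sum_congr rfl fun e _ => ?_
  split_ifs with h1
  · rfl
  · exact h e fun h2 => h1 (by rw [h2])

/-- zero-one vector -/
def chi (M : Finset E) : E → ℝ := fun e => if e ∈ M then 1 else 0

lemma cut_chi_single {ends : E → V × V} {M : Finset E} (hM : ∀ e ∈ M, (ends e).1 ≠ (ends e).2)
    (v : V) :
    cut ends {v} (chi M) = ((M.filter fun e => (ends e).1 = v ∨ (ends e).2 = v).card : ℝ) := by
  rw [cut_apply, Finset.card_filter]
  push_cast
  rw [← Finset.sum_subset (Finset.subset_univ M)]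
  · refine Finset.sum_congr rfl fun e he => ?_
    have hl := hM e he
    simp only [Finset.mem_singleton, chi, he, if_true]
    by_cases h1 : (ends e).1 = v <;> by_cases h2 : (ends e).2 = v
    · exact absurd (h1.trans h2.symm) hl
    all_goals simp [h1, h2]
  · intro e _ he
    simp [chi, he]

lemma PM.inQ {W : Finset V} {ends : E → V × V} {M : Finset E} (h : PM W ends M) :
    InQ W ends (chi M) := by
  have hdeg : ∀ v ∈ W, cut ends {v} (chi M) = 1 := fun v hv => by
    rw [cut_chi_single h.1, h.2 v hv, Nat.cast_one]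
  refine ⟨fun e _ => by unfold chi; split_ifs <;> norm_num, hdeg, fun T hT ho => ?_⟩
  have h1 := sum_deg ends T (chi M)
  rw [Finset.sum_congr rfl fun v hv => hdeg v (hT hv)] at h1
  have h2 : cut ends T (chi M) = ((Finset.univ.filter fun e =>
      ¬ ((ends e).1 ∈ T ↔ (ends e).2 ∈ T) ∧ e ∈ M).card : ℝ) := by
    rw [cut_apply, Finset.card_filter]
    push_cast
    refine Finset.sum_congr rfl fun e _ => ?_
    unfold chi
    by_cases h1 : ((ends e).1 ∈ T ↔ (ends e).2 ∈ T) <;> by_cases h2 : e ∈ M <;> simp [h1, h2]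
  have h3 : inside ends T (chi M) = ((Finset.univ.filter fun e =>
      ((ends e).1 ≠ (ends e).2 ∧ (ends e).1 ∈ T ∧ (ends e).2 ∈ T) ∧ e ∈ M).card : ℝ) := by
    rw [inside, Finset.card_filter]
    push_cast
    refine Finset.sum_congr rfl fun e _ => ?_
    unfold chi
    by_cases h1 : ((ends e).1 ≠ (ends e).2 ∧ (ends e).1 ∈ T ∧ (ends e).2 ∈ T) <;>
      by_cases h2 : e ∈ M <;> simp only [h1, h2, if_true, if_false, and_true, and_false,
        not_false_eq_true, ne_eq, and_self]
  rw [h2, h3] at h1
  rw [h2]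
  simp only [Finset.sum_const, nsmul_eq_mul, mul_one] at h1
  have h4 : T.card = (Finset.univ.filter fun e =>
      ¬ ((ends e).1 ∈ T ↔ (ends e).2 ∈ T) ∧ e ∈ M).card + 2 * (Finset.univ.filter fun e =>
      ((ends e).1 ≠ (ends e).2 ∧ (ends e).1 ∈ T ∧ (ends e).2 ∈ T) ∧ e ∈ M).card := by
    exact_mod_cast h1
  obtain ⟨j, hj⟩ := ho
  have h5 : 1 ≤ (Finset.univ.filter fun e =>
      ¬ ((ends e).1 ∈ T ↔ (ends e).2 ∈ T) ∧ e ∈ M).card := by omega
  exact_mod_cast h5

lemma InP.inQ {W : Finset V} {ends : E → V × V} {y : E → ℝ} (h : InP W ends y) :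
    InQ W ends y := by
  obtain ⟨p, hp0, hp1, hpM, hpy⟩ := h
  have hc : ∀ T, cut ends T y = ∑ M, p M * cut ends T (chi M) := by
    intro T
    rw [cut_congr T (z := ∑ M, p M • chi M)]
    · simp [map_sum]
    · intro e he
      rw [← hpy e he, Finset.sum_apply]
      refine Finset.sum_congr rfl fun M _ => ?_
      simp [chi]
  refine ⟨fun e he => ?_, fun v hv => ?_, fun T hT ho => ?_⟩
  · rw [← hpy e he]
    exact Finset.sum_nonneg fun M _ => by split_ifs; exacts [hp0 M, le_rfl]
  · rw [hc, ← hp1]
    refine Finset.sum_congr rfl fun M _ => ?_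
    by_cases h0 : p M = 0
    · simp [h0]
    · rw [(hpM M h0).inQ.deg v hv, mul_one]
  · rw [hc, ← hp1]
    refine Finset.sum_le_sum fun M _ => ?_
    by_cases h0 : p M = 0
    · simp [h0]
    · exact le_mul_of_one_le_right (hp0 M) ((hpM M h0).inQ.odd T hT ho)

lemma inP_of_family {W : Finset V} {ends : E → V × V} {y : E → ℝ} {ι : Type} [Fintype ι]
    (w : ι → ℝ) (Mf : ι → Finset E) (h0 : ∀ i, 0 ≤ w i) (h1 : ∑ i, w i = 1)
    (hM : ∀ i, w i ≠ 0 → PM W ends (Mf i))
    (hy : ∀ e, (ends e).1 ≠ (ends e).2 → ∑ i, (if e ∈ Mf i then w i else 0) = y e) :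
    InP W ends y := by
  refine ⟨fun M => ∑ i, if Mf i = M then w i else 0, fun M => ?_, ?_, fun M hne => ?_,
    fun e he => ?_⟩
  · exact Finset.sum_nonneg fun i _ => by split_ifs; exacts [h0 i, le_rfl]
  · rw [Finset.sum_comm, ← h1]
    refine Finset.sum_congr rfl fun i _ => ?_
    simp
  · obtain ⟨i, -, hi⟩ := Finset.exists_ne_zero_of_sum_ne_zero hne
    by_cases h : Mf i = M
    · rw [if_pos h] at hi
      exact h ▸ hM i hi
    · exact absurd (if_neg h) hi
  · rw [← hy e he]
    have : ∀ M : Finset E, (if e ∈ M then ∑ i, (if Mf i = M then w i else 0) else 0) =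
        ∑ i, if Mf i = M then (if e ∈ Mf i then w i else 0) else 0 := by
      intro M
      split_ifs with h
      · refine Finset.sum_congr rfl fun i _ => ?_
        split_ifs with h2 h3
        · rfl
        · exact absurd (h2 ▸ h) h3
        · rfl
      · symm
        refine Finset.sum_eq_zero fun i _ => ?_
        split_ifs with h2 h3
        · exact absurd (h2 ▸ h3) h
        · rfl
        · rfl
    rw [Finset.sum_congr rfl fun M _ => this M, Finset.sum_comm]
    refine Finset.sum_congr rfl fun i _ => ?_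
    simp

lemma PM.inP {W : Finset V} {ends : E → V × V} {M : Finset E} (h : PM W ends M) {y : E → ℝ}
    (hy : ∀ e, (ends e).1 ≠ (ends e).2 → chi M e = y e) : InP W ends y :=
  inP_of_family (ι := Unit) (fun _ => 1) (fun _ => M) (fun _ => zero_le_one) (by simp)
    (fun _ _ => h) fun e he => by simpa [chi] using hy e he

lemma InP.mix {W : Finset V} {ends : E → V × V} {y z : E → ℝ} (hy : InP W ends y)
    (hz : InP W ends z) {a b : ℝ} (ha : 0 ≤ a) (hb : 0 ≤ b) (hab : a + b = 1) :
    InP W ends (a • y + b • z) := by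
  obtain ⟨p, hp0, hp1, hpM, hpy⟩ := hy
  obtain ⟨q, hq0, hq1, hqM, hqy⟩ := hz
  refine ⟨fun M => a * p M + b * q M, fun M => by have := hp0 M; have := hq0 M; positivity, ?_,
    fun M hne => ?_, fun e he => ?_⟩
  · rw [Finset.sum_add_distrib, ← Finset.mul_sum, ← Finset.mul_sum, hp1, hq1]
    linarith
  · by_cases h : p M = 0
    · refine hqM M fun h2 => hne ?_
      simp [h, h2]
    · exact hpM M h
  · simp only [Pi.add_apply, Pi.smul_apply, smul_eq_mul]
    rw [← hpy e he, ← hqy e he, Finset.mul_sum, Finset.mul_sum, ← Finset.sum_add_distrib]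
    refine Finset.sum_congr rfl fun M _ => ?_
    split_ifs <;> simp

/-! ### Contraction -/

/-- contract the complement of `S` to the vertex `r`. -/
def con (S : Finset V) (r : V) (v : V) : V := if v ∈ S then v else r

def cends (S : Finset V) (r : V) (ends : E → V × V) (e : E) : V × V :=
  (con S r (ends e).1, con S r (ends e).2)

omit [Fintype E] [DecidableEq E] in
lemma inW_cends (S : Finset V) (r : V) (ends : E → V × V) : InW (insert r S) (cends S r ends) := by
  intro e
  constructor <;> simp only [cends, con] <;> split_ifs <;> simp [*]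

lemma con_eq_iff {S : Finset V} {r : V} (hr : r ∉ S) {v : V} (hv : v ∈ S) (a : V) :
    con S r a = v ↔ a = v := by
  unfold con
  split_ifs with h
  · rfl
  · constructor
    · rintro rfl; exact absurd hv hr
    · rintro rfl; exact absurd hv h

lemma con_eq_root {S : Finset V} {r : V} (hr : r ∉ S) (a : V) : con S r a = r ↔ a ∉ S := by
  unfold con
  split_ifs with h
  · constructor
    · rintro rfl; exact absurd h hr
    · intro h2; exact absurd h h2
  · simp [h]

omit [Fintype E] [DecidableEq E] in
lemma nl_cends {S : Finset V} {r : V} (hr : r ∉ S) (ends : E → V × V) (e : E) :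
    (cends S r ends e).1 ≠ (cends S r ends e).2 ↔
      (ends e).1 ≠ (ends e).2 ∧ ((ends e).1 ∈ S ∨ (ends e).2 ∈ S) := by
  simp only [cends, con]
  by_cases h1 : (ends e).1 ∈ S <;> by_cases h2 : (ends e).2 ∈ S <;> simp only [h1, h2, if_true,
    if_false, or_self, or_true, true_or, and_true, and_false, ne_eq, not_true]
  · constructor
    · intro _ h; exact h2 (h ▸ h1)
    · intro _ h; exact hr (h ▸ h1)
  · constructor
    · intro _ h; exact h1 (h ▸ h2)
    · intro _ h; exact hr (h ▸ h2)

omit [DecidableEq E] in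
lemma cut_cends {W : Finset V} {ends : E → V × V} (hW : InW W ends) (S : Finset V) (r : V)
    (U : Finset V) (y : E → ℝ) :
    cut (cends S r ends) U y = cut ends (W.filter fun a => con S r a ∈ U) y := by
  rw [cut_apply, cut_apply]
  refine Finset.sum_congr rfl fun e _ => ?_
  have h := hW e
  refine if_congr ?_ rfl rfl
  rw [Finset.mem_filter, Finset.mem_filter]
  simp only [cends, h.1, h.2, true_and]

omit [DecidableEq E] in
lemma cut_cends_mem {W : Finset V} {ends : E → V × V} (hW : InW W ends) {S : Finset V}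
    (hS : S ⊆ W) {r : V} (hr : r ∉ S) {v : V} (hv : v ∈ S) (y : E → ℝ) :
    cut (cends S r ends) {v} y = cut ends {v} y := by
  rw [cut_cends hW]
  congr 2
  ext a
  simp only [Finset.mem_filter, Finset.mem_singleton, con_eq_iff hr hv]
  exact ⟨fun h => h.2, fun h => ⟨h ▸ hS hv, h⟩⟩

omit [DecidableEq E] in
lemma cut_cends_root {W : Finset V} {ends : E → V × V} (hW : InW W ends) {S : Finset V}
    {r : V} (hr : r ∉ S) (y : E → ℝ) :
    cut (cends S r ends) {r} y = cut ends S y := by
  rw [cut_cends hW, ← cut_compl hW S]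
  congr 2
  ext a
  simp only [Finset.mem_filter, Finset.mem_singleton, con_eq_root hr, Finset.mem_sdiff]

omit [DecidableEq E] in
lemma InQ.contract {W : Finset V} {ends : E → V × V} (hW : InW W ends) {x : E → ℝ}
    (h : InQ W ends x) {S : Finset V} (hS : S ⊆ W) (ho : Odd (W \ S).card)
    (ht : cut ends S x = 1) {r : V} (hr : r ∉ S) : InQ (insert r S) (cends S r ends) x := by
  refine ⟨fun e he => h.nn e ((nl_cends hr ends e).mp he).1, fun v hv => ?_, fun U hU hUo => ?_⟩
  · rcases Finset.mem_insert.mp hv with rfl | hv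
    · rw [cut_cends_root hW hr, ht]
    · rw [cut_cends_mem hW hS hr hv, h.deg v (hS hv)]
  · rw [cut_cends hW]
    refine h.odd _ (Finset.filter_subset _ _) ?_
    by_cases hrU : r ∈ U
    · have e1 : (W.filter fun a => con S r a ∈ U) = U.erase r ∪ (W \ S) := by
        ext a
        rw [Finset.mem_filter]
        simp only [Finset.mem_union, Finset.mem_erase, Finset.mem_sdiff, con]
        by_cases ha : a ∈ S
        · have : a ≠ r := fun h => hr (h ▸ ha)
          simp [ha, hS ha, this]
        · simp only [ha, if_false, hrU, and_true, not_false_eq_true]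
          constructor
          · exact fun h => Or.inr h
          · rintro (⟨h1, h2⟩ | h1)
            · rcases Finset.mem_insert.mp (hU h2) with h3 | h3
              · exact absurd h3 h1
              · exact absurd h3 ha
            · exact h1
      have e2 : Disjoint (U.erase r) (W \ S) := by
        refine Finset.disjoint_left.mpr fun a h1 h2 => ?_
        rcases Finset.mem_insert.mp (hU (Finset.mem_erase.mp h1).2) with h3 | h3
        · exact (Finset.mem_erase.mp h1).1 h3
        · exact (Finset.mem_sdiff.mp h2).2 h3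
      rw [e1, Finset.card_union_of_disjoint e2, Finset.card_erase_of_mem hrU]
      obtain ⟨j, hj⟩ := ho
      obtain ⟨i, hi⟩ := hUo
      exact ⟨i + j, by omega⟩
    · have e1 : (W.filter fun a => con S r a ∈ U) = U := by
        ext a
        rw [Finset.mem_filter]
        simp only [con]
        by_cases ha : a ∈ S
        · simp [ha, hS ha]
        · simp only [ha, if_false, hrU, and_false, false_iff]
          intro h2
          rcases Finset.mem_insert.mp (hU h2) with h3 | h3
          · exact hrU (h3 ▸ h2)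
          · exact ha h3
      rwa [e1]

end Crest.Agent.R304P
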