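import Crest.Agent.R304P.Basic

/-! # Gluing laws on perfect matchings along a tight cut -/

set_option autoImplicit false

namespace Crest.Agent.R304P

open Finset

variable {V E : Type} [DecidableEq V] [Fintype E] [DecidableEq E]

/-- `e` has an end in `S`. -/
def Tch (ends : E → V × V) (S : Finset V) (e : E) : Prop := (ends e).1 ∈ S ∨ (ends e).2 ∈ S

instance (ends : E → V × V) (S : Finset V) : DecidablePred (Tch ends S) := fun _ =>
  inferInstanceAs (Decidable (_ ∨ _))

structure Split (W S T : Finset V) : Prop where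
  sub : S ⊆ W
  sub' : T ⊆ W
  iff : ∀ a ∈ W, a ∈ T ↔ a ∉ S

omit [DecidableEq V] in
lemma Split.symm {W S T : Finset V} (h : Split W S T) : Split W T S :=
  ⟨h.sub', h.sub, fun a ha => by rw [h.iff a ha, not_not]⟩

omit [Fintype E] [DecidableEq E] in
lemma card_tch {W S T : Finset V} {ends : E → V × V} (hW : InW W ends) (h : Split W S T) {r : V}
    (hr : r ∉ S) {M : Finset E} (hM : PM (insert r S) (cends S r ends) M) :
    (M.filter (Tch ends T)).card = 1 := by
  rw [← hM.2 r (Finset.mem_insert_self _ _)]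
  congr 1
  refine Finset.filter_congr fun e _ => ?_
  simp only [Tch, cends, con_eq_root hr, h.iff _ (hW e).1, h.iff _ (hW e).2]

omit [Fintype E] [DecidableEq E] in
lemma tch_unique {W S T : Finset V} {ends : E → V × V} (hW : InW W ends) (h : Split W S T) {r : V}
    (hr : r ∉ S) {M : Finset E} (hM : PM (insert r S) (cends S r ends) M) {e f : E} (he : e ∈ M)
    (hf : f ∈ M) (he' : Tch ends T e) (hf' : Tch ends T f) : f = e :=
  Finset.card_le_one.mp (card_tch hW h hr hM).le f (Finset.mem_filter.mpr ⟨hf, hf'⟩) e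
    (Finset.mem_filter.mpr ⟨he, he'⟩)

/-- conditional weights sum to the marginal law -/
lemma row_sum {W S T : Finset V} {ends : E → V × V} (hW : InW W ends) (h : Split W S T) {r r' : V}
    (hr : r ∉ S) (hr' : r' ∉ T) {y : E → ℝ} {p q : Finset E → ℝ} (hp0 : ∀ M, 0 ≤ p M)
    (hpM : ∀ M, p M ≠ 0 → PM (insert r S) (cends S r ends) M)
    (hpy : ∀ e, (cends S r ends e).1 ≠ (cends S r ends e).2 →
      ∑ M, (if e ∈ M then p M else 0) = y e)
    (hqy : ∀ e, (cends T r' ends e).1 ≠ (cends T r' ends e).2 →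
      ∑ M, (if e ∈ M then q M else 0) = y e) (M : Finset E) :
    ∑ e, ∑ N, (if (Tch ends S e ∧ Tch ends T e) ∧ e ∈ M ∧ e ∈ N then p M * q N / y e else 0) =
      p M := by
  by_cases h0 : p M = 0
  · simp [h0]
  have hM := hpM M h0
  have h1 : ∀ e, ∑ N, (if (Tch ends S e ∧ Tch ends T e) ∧ e ∈ M ∧ e ∈ N then p M * q N / y e
      else 0) = if e ∈ M.filter (Tch ends T) then p M else 0 := by
    intro e
    by_cases he : e ∈ M.filter (Tch ends T)
    · obtain ⟨he1, he2⟩ := Finset.mem_filter.mp he
      have hnl := hM.1 e he1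
      obtain ⟨hl, hS⟩ := (nl_cends hr ends e).mp hnl
      have hy : 0 < y e := by
        rw [← hpy e hnl]
        refine lt_of_lt_of_le (lt_of_le_of_ne (hp0 M) (Ne.symm h0)) ?_
        have := Finset.single_le_sum (f := fun N => if e ∈ N then p N else 0)
          (fun N _ => by split_ifs; exacts [hp0 N, le_rfl]) (Finset.mem_univ M)
        simpa [he1] using this
      have h2 := hqy e ((nl_cends hr' ends e).mpr ⟨hl, he2⟩)
      rw [if_pos he]
      have h3 : ∀ N, (if (Tch ends S e ∧ Tch ends T e) ∧ e ∈ M ∧ e ∈ N then p M * q N / y e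
          else 0) = p M / y e * (if e ∈ N then q N else 0) := by
        intro N
        have hS' : Tch ends S e := hS
        by_cases hN : e ∈ N
        · simp only [hS', he2, he1, hN, and_self, if_true]
          ring
        · simp [hN]
      rw [Finset.sum_congr rfl fun N _ => h3 N, ← Finset.mul_sum, h2]
      field_simp
    · rw [if_neg he]
      refine Finset.sum_eq_zero fun N _ => if_neg fun h2 => he ?_
      exact Finset.mem_filter.mpr ⟨h2.2.1, h2.1.2⟩
  rw [Finset.sum_congr rfl fun e _ => h1 e, Finset.sum_ite_mem, Finset.univ_inter,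
    Finset.sum_const, card_tch hW h hr hM, one_smul]

omit [Fintype E] in
lemma union_deg {W S T : Finset V} {ends : E → V × V} (hW : InW W ends) (h : Split W S T)
    {r r' : V} (hr : r ∉ S) (hr' : r' ∉ T) {M N : Finset E}
    (hM : PM (insert r S) (cends S r ends) M) (hN : PM (insert r' T) (cends T r' ends) N) {e : E}
    (heS : Tch ends S e) (heM : e ∈ M) (heN : e ∈ N) {v : V} (hv : v ∈ S) :
    ((M ∪ N).filter fun f => (ends f).1 = v ∨ (ends f).2 = v).card = 1 := by
  rw [← hM.2 v (Finset.mem_insert_of_mem hv)]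
  congr 1
  ext f
  simp only [Finset.mem_filter, Finset.mem_union, cends, con_eq_iff hr hv]
  constructor
  · rintro ⟨h1 | h1, h2⟩
    · exact ⟨h1, h2⟩
    · have h3 : Tch ends S f := by
        rcases h2 with h2 | h2
        · exact Or.inl (h2 ▸ hv)
        · exact Or.inr (h2 ▸ hv)
      exact ⟨tch_unique hW h.symm hr' hN heN h1 heS h3 ▸ heM, h2⟩
  · exact fun h1 => ⟨Or.inl h1.1, h1.2⟩

theorem glue {W S T : Finset V} {ends : E → V × V} (hW : InW W ends) (h : Split W S T) {r r' : V}
    (hr : r ∉ S) (hr' : r' ∉ T) {y : E → ℝ} (h1 : InP (insert r S) (cends S r ends) y)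
    (h2 : InP (insert r' T) (cends T r' ends) y) : InP W ends y := by
  have hy0 := h1.inQ.nn
  obtain ⟨p, hp0, hp1, hpM, hpy⟩ := h1
  obtain ⟨q, hq0, hq1, hqM, hqy⟩ := h2
  set w : E × Finset E × Finset E → ℝ := fun i =>
    if (Tch ends S i.1 ∧ Tch ends T i.1) ∧ i.1 ∈ i.2.1 ∧ i.1 ∈ i.2.2 then
      p i.2.1 * q i.2.2 / y i.1 else 0 with hw
  have hne : ∀ i, w i ≠ 0 → ((Tch ends S i.1 ∧ Tch ends T i.1) ∧ i.1 ∈ i.2.1 ∧ i.1 ∈ i.2.2) ∧
      PM (insert r S) (cends S r ends) i.2.1 ∧ PM (insert r' T) (cends T r' ends) i.2.2 := by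
    intro i hi
    simp only [hw] at hi
    split_ifs at hi with hc
    · refine ⟨hc, hpM _ fun h0 => hi ?_, hqM _ fun h0 => hi ?_⟩ <;> simp [h0]
    · exact absurd rfl hi
  have hrow : ∀ M, ∑ e, ∑ N, w (e, M, N) = p M := row_sum hW h hr hr' hp0 hpM hpy hqy
  have hcol : ∀ N, ∑ e, ∑ M, w (e, M, N) = q N := by
    intro N
    rw [← row_sum hW h.symm hr' hr hq0 hqM hqy hpy N]
    refine Finset.sum_congr rfl fun e _ => Finset.sum_congr rfl fun M _ => ?_
    simp only [hw]
    refine if_congr (by tauto) (by ring) rfl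
  refine inP_of_family w (fun i => i.2.1 ∪ i.2.2) (fun i => ?_) ?_ (fun i hi => ?_) fun f hf => ?_
  · by_cases hi : w i = 0
    · exact hi.ge
    · obtain ⟨hc, hM, -⟩ := hne i hi
      simp only [hw, hc, and_self, if_true]
      exact div_nonneg (mul_nonneg (hp0 _) (hq0 _)) (hy0 _ (hM.1 _ hc.2.1))
  · rw [← hp1, Fintype.sum_prod_type]
    simp only [Fintype.sum_prod_type]
    rw [Finset.sum_comm]
    exact Finset.sum_congr rfl fun M _ => hrow M
  · obtain ⟨hc, hM, hN⟩ := hne i hi
    refine ⟨fun e he => ?_, fun v hv => ?_⟩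
    · rcases Finset.mem_union.mp he with he | he
      · exact ((nl_cends hr ends e).mp (hM.1 e he)).1
      · exact ((nl_cends hr' ends e).mp (hN.1 e he)).1
    · by_cases hvS : v ∈ S
      · exact union_deg hW h hr hr' hM hN hc.1.1 hc.2.1 hc.2.2 hvS
      · rw [Finset.union_comm]
        exact union_deg hW h.symm hr' hr hN hM hc.1.2 hc.2.2 hc.2.1 ((h.iff v hv).mpr hvS)
  · by_cases hfS : Tch ends S f
    · rw [← hpy f ((nl_cends hr ends f).mpr ⟨hf, hfS⟩)]
      have h3 : ∀ i : E × Finset E × Finset E, (if f ∈ i.2.1 ∪ i.2.2 then w i else 0) =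
          if f ∈ i.2.1 then w i else 0 := by
        intro i
        by_cases hi : w i = 0
        · simp [hi]
        · obtain ⟨hc, hM, hN⟩ := hne i hi
          refine if_congr ⟨fun h4 => ?_, fun h4 => Finset.mem_union_left _ h4⟩ rfl rfl
          rcases Finset.mem_union.mp h4 with h4 | h4
          · exact h4
          · exact tch_unique hW h.symm hr' hN hc.2.2 h4 hc.1.1 hfS ▸ hc.2.1
      rw [Finset.sum_congr rfl fun i _ => h3 i]
      simp only [Fintype.sum_prod_type]
      rw [Finset.sum_comm]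
      refine Finset.sum_congr rfl fun M _ => ?_
      split_ifs
      · exact hrow M
      · simp
    · have hfT : Tch ends T f := by
        refine Or.inl ((h.iff _ (hW f).1).mpr fun h4 => hfS (Or.inl h4))
      rw [← hqy f ((nl_cends hr' ends f).mpr ⟨hf, hfT⟩)]
      have h3 : ∀ i : E × Finset E × Finset E, (if f ∈ i.2.1 ∪ i.2.2 then w i else 0) =
          if f ∈ i.2.2 then w i else 0 := by
        intro i
        by_cases hi : w i = 0
        · simp [hi]
        · obtain ⟨hc, hM, hN⟩ := hne i hi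
          refine if_congr ⟨fun h4 => ?_, fun h4 => Finset.mem_union_right _ h4⟩ rfl rfl
          rcases Finset.mem_union.mp h4 with h4 | h4
          · exact absurd ((nl_cends hr ends f).mp (hM.1 f h4)).2 hfS
          · exact h4
      rw [Finset.sum_congr rfl fun i _ => h3 i]
      simp only [Fintype.sum_prod_type]
      rw [Finset.sum_congr rfl fun e _ => Finset.sum_comm, Finset.sum_comm]
      refine Finset.sum_congr rfl fun N _ => ?_
      split_ifs
      · exact hcol N
      · simp

end Crest.Agent.R304P
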