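import Crest.Agent.R304P.Dim
import Crest.Agent.R304E.Defs

/-! # The codimension count after removing the edges with `x e = 1` -/

set_option autoImplicit false

namespace Crest.Agent.R304P

open Finset Crest.Matchings

section

variable {V E : Type} [DecidableEq V] [Fintype E] [DecidableEq E]

lemma add_le_one {W : Finset V} {ends : E → V × V} {x : E → ℝ} (hx : InQ W ends x)
    (hends : ∀ e, (ends e).1 ≠ (ends e).2) {v : V} (hv : v ∈ W) {e f : E} (hef : e ≠ f)
    (he : (ends e).1 = v ∨ (ends e).2 = v) (hf : (ends f).1 = v ∨ (ends f).2 = v) :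
    x e + x f ≤ 1 := by
  rw [← hx.deg v hv, cut_apply]
  have key : ∀ g, ((ends g).1 = v ∨ (ends g).2 = v) →
      ¬ ((ends g).1 ∈ ({v} : Finset V) ↔ (ends g).2 ∈ ({v} : Finset V)) := by
    intro g hg h
    simp only [Finset.mem_singleton] at h
    rcases hg with hg | hg
    · exact hends g (hg.trans (h.mp hg).symm)
    · exact hends g ((h.mpr hg).trans hg.symm)
  have := Finset.sum_le_sum_of_subset_of_nonneg (Finset.subset_univ ({e, f} : Finset E))
    (f := fun g => if ((ends g).1 ∈ ({v} : Finset V) ↔ (ends g).2 ∈ ({v} : Finset V)) then 0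
      else x g) (fun g _ _ => by split_ifs; exacts [le_rfl, hx.nn g (hends g)])
  rwa [Finset.sum_pair hef, if_neg (key e he), if_neg (key f hf)] at this

theorem codim_frac {W : Finset V} {ends : E → V × V} (hW : InW W ends) (hev : Even W.card)
    (hends : ∀ e, (ends e).1 ≠ (ends e).2) {x : E → ℝ} (hx : InQ W ends x)
    (hfr : ∃ e, 0 < x e ∧ x e < 1) :
    ∃ L : Submodule ℝ (E → ℝ), (∀ h ∈ L, Dirn W ends x h) ∧
      2 * (Finset.univ.filter fun e => 0 < x e ∧ x e < 1).card + 4 +
        6 * (Finset.univ.filter fun e => x e = 1).card ≤ 2 * Module.finrank ℝ L + 3 * W.card := by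
  classical
  set M1 : Finset E := Finset.univ.filter fun e => x e = 1 with hM1
  set W' : Finset V := W.filter fun v => ∀ e ∈ M1, ¬ ((ends e).1 = v ∨ (ends e).2 = v) with hW'
  have hx0 : ∀ e, 0 ≤ x e := fun e => hx.nn e (hends e)
  have mem1 : ∀ e, e ∈ M1 ↔ x e = 1 := fun e => by simp [hM1]
  have hsub : W' ⊆ W := Finset.filter_subset _ _
  -- edges leaving `W'`
  have hout : ∀ e v, v ∈ W → v ∉ W' → ((ends e).1 = v ∨ (ends e).2 = v) → e ∈ M1 ∨ x e = 0 := by
    intro e v hv hv' he
    have : ∃ f ∈ M1, (ends f).1 = v ∨ (ends f).2 = v := by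
      by_contra hcon
      exact hv' (Finset.mem_filter.mpr ⟨hv, fun f hf h => hcon ⟨f, hf, h⟩⟩)
    obtain ⟨f, hf, hfv⟩ := this
    by_cases hef : e = f
    · exact Or.inl (hef ▸ hf)
    · have h1 := add_le_one hx hends hv hef he hfv
      rw [(mem1 f).mp hf] at h1
      exact Or.inr (le_antisymm (by linarith) (hx0 e))
  have hout' : ∀ e, ¬ ((ends e).1 ∈ W' ∧ (ends e).2 ∈ W') → e ∈ M1 ∨ x e = 0 := by
    intro e he
    rcases not_and_or.mp he with h | h
    · exact hout e _ (hW e).1 h (Or.inl rfl)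
    · exact hout e _ (hW e).2 h (Or.inr rfl)
  have hin : ∀ e ∈ M1, (ends e).1 ∉ W' ∧ (ends e).2 ∉ W' := fun e he =>
    ⟨fun h => (Finset.mem_filter.mp h).2 e he (Or.inl rfl),
      fun h => (Finset.mem_filter.mp h).2 e he (Or.inr rfl)⟩
  have hdeg1 : ∀ v ∈ W, v ∉ W' →
      (M1.filter fun e => (ends e).1 = v ∨ (ends e).2 = v).card = 1 := by
    intro v hv hv'
    have : ∃ f ∈ M1, (ends f).1 = v ∨ (ends f).2 = v := by
      by_contra hcon
      exact hv' (Finset.mem_filter.mpr ⟨hv, fun f hf h => hcon ⟨f, hf, h⟩⟩)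
    obtain ⟨f, hf, hfv⟩ := this
    refine Finset.card_eq_one.mpr ⟨f, Finset.eq_singleton_iff_unique_mem.mpr
      ⟨Finset.mem_filter.mpr ⟨hf, hfv⟩, fun e he => ?_⟩⟩
    by_contra hef
    obtain ⟨he1, he2⟩ := Finset.mem_filter.mp he
    have h1 := add_le_one hx hends hv hef he2 hfv
    rw [(mem1 f).mp hf, (mem1 e).mp he1] at h1
    linarith
  have hcard : W'.card + 2 * M1.card = W.card := by
    have h1 := sum_deg ends (W \ W') (chi M1)
    have h2 : ∑ v ∈ W \ W', cut ends {v} (chi M1) = ((W \ W').card : ℝ) := by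
      rw [Finset.sum_congr rfl (g := fun _ => (1 : ℝ))]
      · simp
      · intro v hv
        rw [cut_chi_single fun e _ => hends e, hdeg1 v (Finset.mem_sdiff.mp hv).1
          (Finset.mem_sdiff.mp hv).2, Nat.cast_one]
    have h3 : cut ends (W \ W') (chi M1) = 0 := by
      rw [cut_compl hW, cut_apply]
      refine Finset.sum_eq_zero fun e _ => ?_
      by_cases he : e ∈ M1
      · simp [(hin e he).1, (hin e he).2]
      · simp [chi, he]
    have h4 : inside ends (W \ W') (chi M1) = M1.card := by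
      have : (M1.card : ℝ) = ∑ e, chi M1 e := by simp [chi]
      rw [this, inside]
      refine Finset.sum_congr rfl fun e _ => ?_
      by_cases he : e ∈ M1
      · rw [if_pos ⟨hends e, Finset.mem_sdiff.mpr ⟨(hW e).1, (hin e he).1⟩,
          Finset.mem_sdiff.mpr ⟨(hW e).2, (hin e he).2⟩⟩]
      · simp [chi, he]
    rw [h2, h3, h4, zero_add] at h1
    have h5 : (W \ W').card = 2 * M1.card := by exact_mod_cast h1
    have h6 := Finset.card_sdiff_add_card_eq_card hsub
    omega
  obtain ⟨e0, he0, he0'⟩ := hfr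
  have hr : (ends e0).1 ∈ W' := by
    by_contra hcon
    rcases hout e0 _ (hW e0).1 hcon (Or.inl rfl) with h | h
    · exact he0'.ne ((mem1 e0).mp h)
    · exact he0.ne' h
  set r := (ends e0).1
  set ends' : E → V × V := fun e =>
    if (ends e).1 ∈ W' ∧ (ends e).2 ∈ W' then ends e else (r, r) with hends'
  have hW2 : InW W' ends' := by
    intro e
    simp only [hends']
    split_ifs with h
    · exact h
    · exact ⟨hr, hr⟩
  have hnl : ∀ e, (ends' e).1 ≠ (ends' e).2 ↔ ((ends e).1 ∈ W' ∧ (ends e).2 ∈ W') := by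
    intro e
    simp only [hends']
    split_ifs with h
    · simp [h, hends e]
    · simp [h]
  have hcut : ∀ T ⊆ W', cut ends' T x = cut ends T x := by
    intro T hT
    rw [cut_apply, cut_apply]
    refine Finset.sum_congr rfl fun e _ => ?_
    by_cases h : (ends e).1 ∈ W' ∧ (ends e).2 ∈ W'
    · have : ends' e = ends e := if_pos h
      rw [this]
    · have : ends' e = (r, r) := if_neg h
      rw [this, if_pos Iff.rfl]
      rcases hout' e h with h1 | h1
      · rw [if_pos]
        exact iff_of_false (fun h2 => (hin e h1).1 (hT h2)) (fun h2 => (hin e h1).2 (hT h2))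
      · simp [h1]
  have hq : InQ W' ends' x :=
    ⟨fun e _ => hx0 e, fun v hv => by
      rw [hcut _ (Finset.singleton_subset_iff.mpr hv), hx.deg v (hsub hv)],
      fun T hT ho => by rw [hcut T hT]; exact hx.odd T (hT.trans hsub) ho⟩
  have hev' : Even W'.card := by
    obtain ⟨j, hj⟩ := hev
    exact ⟨j - M1.card, by omega⟩
  obtain ⟨L, c, hL, hc, hd⟩ := codim W' ends' hW2 hev' x hq r hr
  obtain ⟨L1, hL1, hL1'⟩ := exists_cod ({r} : Finset V) fun v => cut ends' {v}
  obtain ⟨K, hK, hK'⟩ := exists_cod (E := E) (Finset.univ.filter fun e => 0 < x e ∧ x e < 1)ᶜ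
    fun e => LinearMap.proj e
  have h1 := (hL.inf hL1).inf hK
  have h2 := Finset.card_add_card_compl (Finset.univ.filter fun e => 0 < x e ∧ x e < 1)
  refine ⟨L ⊓ L1 ⊓ K, fun h hh => ?_, ?_⟩
  · have hz0 : ∀ e, x e = 0 → h e = 0 := fun e h0 => hK' h hh.2 e (by simp [h0])
    have hz1 : ∀ e, x e = 1 → h e = 0 := fun e h0 => hK' h hh.2 e (by simp [h0])
    obtain ⟨ε, hε, h3⟩ := hd h hh.1.1 (fun e _ h0 => hz0 e h0)
      (hL1' h hh.1.2 _ (Finset.mem_singleton_self _))
    refine ⟨ε, hε, fun t ht => ?_⟩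
    obtain ⟨p, hp0, hp1, hpM, hpy⟩ := h3 t ht
    refine inP_of_family p (fun M => M ∪ M1) hp0 hp1 (fun M hM => ⟨fun e _ => hends e,
      fun v hv => ?_⟩) fun e _ => ?_
    · have hM' := hpM M hM
      by_cases hv' : v ∈ W'
      · rw [← hM'.2 v hv']
        congr 1
        ext e
        simp only [Finset.mem_filter, Finset.mem_union]
        constructor
        · rintro ⟨h4 | h4, h5⟩
          · have : ends' e = ends e := if_pos ((hnl e).mp (hM'.1 e h4))
            exact ⟨h4, by rwa [this]⟩
          · exact absurd h5 ((Finset.mem_filter.mp hv').2 e h4)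
        · rintro ⟨h4, h5⟩
          have : ends' e = ends e := if_pos ((hnl e).mp (hM'.1 e h4))
          exact ⟨Or.inl h4, by rwa [this] at h5⟩
      · rw [← hdeg1 v hv hv']
        congr 1
        ext e
        simp only [Finset.mem_filter, Finset.mem_union]
        constructor
        · rintro ⟨h4 | h4, h5⟩
          · have h6 := (hnl e).mp (hM'.1 e h4)
            rcases h5 with h5 | h5
            · exact absurd (h5 ▸ h6.1) hv'
            · exact absurd (h5 ▸ h6.2) hv'
          · exact ⟨h4, h5⟩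
        · exact fun h4 => ⟨Or.inr h4.1, h4.2⟩
    · by_cases h4 : (ends e).1 ∈ W' ∧ (ends e).2 ∈ W'
      · rw [← hpy e ((hnl e).mpr h4)]
        have h5 : e ∉ M1 := fun h5 => (hin e h5).1 h4.1
        simp [h5]
      · by_cases h5 : e ∈ M1
        · have h6 := (mem1 e).mp h5
          simp [h5, hp1, h6, hz1 e h6]
        · have h6 := (hout' e h4).resolve_left h5
          simp only [Pi.add_apply, Pi.smul_apply, h6, hz0 e h6, smul_zero, add_zero]
          refine Finset.sum_eq_zero fun M _ => ?_
          split_ifs with h7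
          · by_contra h8
            rcases Finset.mem_union.mp h7 with h7 | h7
            · exact h4 ((hnl e).mp ((hpM M h8).1 e h7))
            · exact h5 h7
          · rfl
  · unfold Cod at h1
    simp only [Finset.card_singleton] at h1
    omega

end

theorem rank : Crest.Agent.R304E.RankStmt := by
  intro m k ends hends x hx hfr
  obtain ⟨L, hL, h1⟩ := codim_frac (W := Finset.univ) (ends := ends)
    (fun e => ⟨Finset.mem_univ _, Finset.mem_univ _⟩) (by simp) hends
    ((inP_iff_mem hends x).mpr hx).inQ hfr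
  have h2 : Module.finrank ℝ L ≤ pmFaceDim ends x := by
    refine Submodule.finrank_mono fun h hh => Submodule.subset_span ?_
    obtain ⟨ε, hε, h3⟩ := hL h hh
    exact ⟨ε, hε, fun t ht => (inP_iff_mem hends _).mp (h3 t ht)⟩
  simp only [Finset.card_univ, Fintype.card_fin] at h1
  omega

end Crest.Agent.R304P
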